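import Vale.Agent.P203.Gar.Lift

/-! P203, block GAR, part 2: the Garside element of a spherical subset, fractions, common lower
bounds, maximal simple divisors. -/

namespace Vale.Agent.P203.Gar

open CoxeterSystem Vale.Agent.P203.Cox

variable {S : Type} {M : CoxeterMatrix S} {T U : Set S}

/-- the longest element of `W_T` -/
noncomputable abbrev wo (M : CoxeterMatrix S) (T : Set S) : M.Group := w0 M.toCoxeterSystem T

/-- the Garside element of `A_T` -/
noncomputable abbrev Dl (M : CoxeterMatrix S) (T : Set S) : ArtinGroup M := tl (wo M T)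

/-- the opposition involution -/
noncomputable abbrev op (M : CoxeterMatrix S) (T : Set S) : S → S := opp M.toCoxeterSystem T

theorem Dl_mem_PM : Dl M T ∈ PM M T := tl_mem_PM w0_mem

theorem Dl_mem_AP : Dl M T ∈ AP M T := tl_mem_AP w0_mem

section Finite

variable [Finite (WP M T)]

theorem Dl_eq_mul_tl {v : M.Group} (hv : v ∈ WP M T) : Dl M T = tl (wo M T * v⁻¹) * tl v := by
  rw [← tl_mul]
  · simp
  · have h := length_w0_mul (cs := M.toCoxeterSystem) (T := T) (inv_mem hv)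
    rw [inv_mul_cancel_right]
    simp only [len_def, wo] at h ⊢
    rw [M.toCoxeterSystem.length_inv] at h
    omega

theorem Dl_eq_tl_mul {v : M.Group} (hv : v ∈ WP M T) : Dl M T = tl v * tl (v⁻¹ * wo M T) := by
  rw [← tl_mul]
  · simp
  · have h := length_mul_w0 (cs := M.toCoxeterSystem) (T := T) (inv_mem hv)
    rw [mul_inv_cancel_left]
    simp only [len_def, wo] at h ⊢
    rw [M.toCoxeterSystem.length_inv] at h
    omega

theorem Dl_mul_gen {t : S} (ht : t ∈ T) :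
    Dl M T * artinGen M t = artinGen M (op M T t) * Dl M T := by
  have h1 : Dl M T = tl (wo M T * M.simple t) * artinGen M t := by
    have := Dl_eq_mul_tl (M := M) (T := T) (v := M.simple t) (simple_mem_parab ht)
    rwa [simple_inv, tl_simple] at this
  have h2 : Dl M T = artinGen M (op M T t) * tl (M.simple (op M T t) * wo M T) := by
    have := Dl_eq_tl_mul (M := M) (T := T) (v := M.simple (op M T t))
      (simple_mem_parab (opp_mem ht))
    rwa [simple_inv, tl_simple] at this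
  have h3 : M.simple (op M T t) * wo M T = wo M T * M.simple t :=
    (w0_mul_simple (cs := M.toCoxeterSystem) ht).symm
  rw [h3] at h2
  calc Dl M T * artinGen M t
      = artinGen M (op M T t) * tl (wo M T * M.simple t) * artinGen M t := by rw [← h2]
    _ = artinGen M (op M T t) * Dl M T := by rw [mul_assoc, ← h1]

theorem gen_mul_Dl {t : S} (ht : t ∈ T) :
    artinGen M t * Dl M T = Dl M T * artinGen M (op M T t) := by
  have h := Dl_mul_gen (M := M) (T := T) (t := op M T t) (opp_mem ht)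
  rw [h]
  have : op M T (op M T t) = t := opp_opp ht
  rw [this]

theorem Dl_mul_PM {a : ArtinGroup M} (ha : a ∈ PM M T) :
    ∃ b ∈ PM M T, Dl M T * a = b * Dl M T := by
  refine PM_induction_left (p := fun a => ∃ b ∈ PM M T, Dl M T * a = b * Dl M T)
    ⟨1, one_mem _, by simp⟩ (fun t ht b hb ih => ?_) ha
  obtain ⟨c, hc, he⟩ := ih
  refine ⟨artinGen M (op M T t) * c, mul_mem (gen_mem_PM (opp_mem ht)) hc, ?_⟩
  rw [← mul_assoc, Dl_mul_gen ht, mul_assoc, he, mul_assoc]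

theorem PM_mul_Dl {a : ArtinGroup M} (ha : a ∈ PM M T) :
    ∃ b ∈ PM M T, a * Dl M T = Dl M T * b := by
  refine PM_induction_left (p := fun a => ∃ b ∈ PM M T, a * Dl M T = Dl M T * b)
    ⟨1, one_mem _, by simp⟩ (fun t ht b hb ih => ?_) ha
  obtain ⟨c, hc, he⟩ := ih
  refine ⟨artinGen M (op M T t) * c, mul_mem (gen_mem_PM (opp_mem ht)) hc, ?_⟩
  rw [mul_assoc, he, ← mul_assoc, gen_mul_Dl ht, mul_assoc]

theorem Dl_pow_mul_PM {a : ArtinGroup M} (ha : a ∈ PM M T) (k : ℕ) :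
    ∃ b ∈ PM M T, Dl M T ^ k * a = b * Dl M T ^ k := by
  induction k generalizing a with
  | zero => exact ⟨a, ha, by simp⟩
  | succ k ih =>
    obtain ⟨b, hb, he⟩ := Dl_mul_PM ha
    obtain ⟨c, hc, he'⟩ := ih hb
    exact ⟨c, hc, by rw [pow_succ, mul_assoc, he, ← mul_assoc, he', mul_assoc]⟩

theorem PM_mul_Dl_pow {a : ArtinGroup M} (ha : a ∈ PM M T) (k : ℕ) :
    ∃ b ∈ PM M T, a * Dl M T ^ k = Dl M T ^ k * b := by
  induction k generalizing a with
  | zero => exact ⟨a, ha, by simp⟩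
  | succ k ih =>
    obtain ⟨b, hb, he⟩ := PM_mul_Dl ha
    obtain ⟨c, hc, he'⟩ := ih hb
    refine ⟨c, hc, ?_⟩
    rw [pow_succ', ← mul_assoc, he, mul_assoc, he', ← mul_assoc]

theorem Dl_mul_inv_gen_mem {t : S} (ht : t ∈ T) : Dl M T * (artinGen M t)⁻¹ ∈ PM M T := by
  have h := Dl_eq_mul_tl (M := M) (T := T) (v := M.simple t) (simple_mem_parab ht)
  rw [simple_inv, tl_simple] at h
  rw [h, mul_inv_cancel_right]
  exact tl_mem_PM (mul_mem w0_mem (simple_mem_parab (cs := M.toCoxeterSystem) ht))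

theorem inv_gen_mul_Dl_mem {t : S} (ht : t ∈ T) : (artinGen M t)⁻¹ * Dl M T ∈ PM M T := by
  have h := Dl_eq_tl_mul (M := M) (T := T) (v := M.simple t) (simple_mem_parab ht)
  rw [simple_inv, tl_simple] at h
  rw [h, inv_mul_cancel_left]
  exact tl_mem_PM (mul_mem (simple_mem_parab (cs := M.toCoxeterSystem) ht) w0_mem)

theorem Dl_mul_tl_inv_mem {v : M.Group} (hv : v ∈ WP M T) : Dl M T * (tl v)⁻¹ ∈ PM M T := by
  rw [Dl_eq_mul_tl hv, mul_inv_cancel_right]
  exact tl_mem_PM (mul_mem w0_mem (inv_mem hv))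

theorem tl_inv_mul_Dl_mem {v : M.Group} (hv : v ∈ WP M T) : (tl v)⁻¹ * Dl M T ∈ PM M T := by
  rw [Dl_eq_tl_mul hv, inv_mul_cancel_left]
  exact tl_mem_PM (mul_mem (inv_mem hv) w0_mem)

/-- `A_T = ⋃ Δ^{-k} P_T` -/
theorem exists_Dl_pow_mul_mem {a : ArtinGroup M} (ha : a ∈ AP M T) :
    ∃ k : ℕ, Dl M T ^ k * a ∈ PM M T := by
  unfold AP at ha
  induction ha using Subgroup.closure_induction'' with
  | mem x hx =>
    obtain ⟨t, ht, rfl⟩ := hx
    exact ⟨0, by simpa using gen_mem_PM ht⟩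
  | inv_mem x hx =>
    obtain ⟨t, ht, rfl⟩ := hx
    exact ⟨1, by simpa using Dl_mul_inv_gen_mem ht⟩
  | one => exact ⟨0, by simp⟩
  | mul x y _ _ hx hy =>
    obtain ⟨k, hk⟩ := hx
    obtain ⟨l, hl⟩ := hy
    obtain ⟨b, hb, he⟩ := Dl_pow_mul_PM hk l
    refine ⟨l + k, ?_⟩
    have : Dl M T ^ (l + k) * (x * y) = b * (Dl M T ^ l * y) := by
      rw [pow_add, ← mul_assoc b, ← he]
      group
    rw [this]
    exact mul_mem hb hl

/-- `A_T = ⋃ P_T Δ^{-k}` -/
theorem exists_mul_Dl_pow_mem {a : ArtinGroup M} (ha : a ∈ AP M T) :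
    ∃ k : ℕ, a * Dl M T ^ k ∈ PM M T := by
  obtain ⟨k, hk⟩ := exists_Dl_pow_mul_mem ha
  obtain ⟨b, hb, he⟩ := PM_mul_Dl_pow hk k
  refine ⟨k, ?_⟩
  have : a * Dl M T ^ k = b := by
    have h2 : Dl M T ^ k * (a * Dl M T ^ k) = Dl M T ^ k * b := by rw [← he, mul_assoc]
    exact mul_left_cancel h2
  rw [this]; exact hb

omit [Finite (WP M T)] in
theorem Dl_pow_mul_mem_mono {a : ArtinGroup M} {k l : ℕ} (hkl : k ≤ l)
    (h : Dl M T ^ k * a ∈ PM M T) : Dl M T ^ l * a ∈ PM M T := by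
  obtain ⟨m, rfl⟩ := Nat.exists_eq_add_of_le' hkl
  rw [pow_add, mul_assoc]
  exact mul_mem (pow_mem Dl_mem_PM m) h

/-- two elements of the same coset of `A_T` have a common lower bound -/
theorem exists_lower {a₁ a₂ : ArtinGroup M} (h : a₁⁻¹ * a₂ ∈ AP M T) :
    ∃ c, c⁻¹ * a₁ ∈ PM M T ∧ c⁻¹ * a₂ ∈ PM M T := by
  obtain ⟨k, hk⟩ := exists_Dl_pow_mul_mem h
  refine ⟨a₁ * (Dl M T ^ k)⁻¹, ?_, ?_⟩
  · rw [mul_inv_rev, inv_inv, mul_assoc, inv_mul_cancel, mul_one]
    exact pow_mem Dl_mem_PM k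
  · rw [mul_inv_rev, inv_inv, mul_assoc]
    exact hk

/-- two elements of the same coset of `A_T` have a common upper bound -/
theorem exists_upper {a₁ a₂ : ArtinGroup M} (h : a₁⁻¹ * a₂ ∈ AP M T) :
    ∃ c, a₁⁻¹ * c ∈ PM M T ∧ a₂⁻¹ * c ∈ PM M T := by
  have h' : a₂⁻¹ * a₁ ∈ AP M T := by
    have := inv_mem h
    rwa [mul_inv_rev, inv_inv] at this
  obtain ⟨k, hk⟩ := exists_mul_Dl_pow_mem h'
  refine ⟨a₁ * Dl M T ^ k, ?_, ?_⟩
  · rw [inv_mul_cancel_left]
    exact pow_mem Dl_mem_PM k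
  · rw [← mul_assoc]; exact hk

end Finite

/-! ### Divisors of maximal degree (any subset `U`) -/

/-- a nonempty set of common left lower bounds contains one of maximal degree -/
theorem exists_max_lower_of_pred (p : ArtinGroup M → Prop) {a : ArtinGroup M}
    (hp : ∀ c, p c → c⁻¹ * a ∈ PM M U) (hne : ∃ c, p c) :
    ∃ c, p c ∧ ∀ c', p c' → alen c' ≤ alen c := by
  obtain ⟨c₀, hc₀⟩ := hne
  -- maximise `alen` over `{c | p c}`, bounded by `alen a`
  have hb : ∀ c, p c → alen c ≤ alen a := fun c hc => by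
    have := alen_nonneg (hp c hc)
    rw [alen_mul, alen_inv] at this
    linarith
  obtain ⟨z, ⟨c, hc, hcz⟩, hz⟩ := Int.exists_greatest_of_bdd (P := fun z => ∃ c, p c ∧ alen c = z)
    ⟨alen a, fun z ⟨c, hc, hcz⟩ => hcz ▸ hb c hc⟩ ⟨_, c₀, hc₀, rfl⟩
  exact ⟨c, hc, fun c' hc' => hcz ▸ hz _ ⟨c', hc', rfl⟩⟩

/-- a common lower bound without common left atom above it -/
theorem exists_max_lower [Finite (WP M T)] {a₁ a₂ : ArtinGroup M} (h : a₁⁻¹ * a₂ ∈ AP M T) :
    ∃ c, c⁻¹ * a₁ ∈ PM M T ∧ c⁻¹ * a₂ ∈ PM M T ∧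
      ∀ s ∈ T, ¬ ((artinGen M s)⁻¹ * (c⁻¹ * a₁) ∈ PM M T ∧
        (artinGen M s)⁻¹ * (c⁻¹ * a₂) ∈ PM M T) := by
  obtain ⟨c, ⟨h1, h2⟩, hmax⟩ := exists_max_lower_of_pred (U := T)
    (fun c => c⁻¹ * a₁ ∈ PM M T ∧ c⁻¹ * a₂ ∈ PM M T) (a := a₁) (fun c hc => hc.1)
    (exists_lower h)
  refine ⟨c, h1, h2, fun s _ hs => ?_⟩
  have h3 := hmax (c * artinGen M s) ⟨by
    rw [mul_inv_rev, mul_assoc]; exact hs.1, by rw [mul_inv_rev, mul_assoc]; exact hs.2⟩
  rw [alen_mul, alen_gen] at h3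
  linarith

/-- `w` is a left simple divisor of `b` (inside the monoid `P_U`) which cannot be prolonged -/
structure MaxSimpleL (U : Set S) (b : ArtinGroup M) (w : M.Group) : Prop where
  mem : w ∈ WP M U
  dvd : (tl w)⁻¹ * b ∈ PM M U
  max : ∀ s ∈ U, len M w < len M (w * M.simple s) →
    (artinGen M s)⁻¹ * ((tl w)⁻¹ * b) ∉ PM M U

/-- `w` is a right simple divisor of `b` (inside the monoid `P_U`) which cannot be prolonged -/
structure MaxSimpleR (U : Set S) (b : ArtinGroup M) (w : M.Group) : Prop where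
  mem : w ∈ WP M U
  dvd : b * (tl w)⁻¹ ∈ PM M U
  max : ∀ s ∈ U, len M w < len M (M.simple s * w) →
    b * (tl w)⁻¹ * (artinGen M s)⁻¹ ∉ PM M U

theorem exists_maxSimpleL {b : ArtinGroup M} (hb : b ∈ PM M U) : ∃ w, MaxSimpleL U b w := by
  have hb' : ∀ w : M.Group, (tl w)⁻¹ * b ∈ PM M U → (len M w : ℤ) ≤ alen b := fun w hw => by
    have := alen_nonneg hw
    rw [alen_mul, alen_inv, alen_tl] at this
    linarith
  obtain ⟨z, ⟨w, ⟨hw, hd⟩, hwz⟩, hz⟩ := Int.exists_greatest_of_bdd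
    (P := fun z => ∃ w : M.Group, (w ∈ WP M U ∧ (tl w)⁻¹ * b ∈ PM M U) ∧ (len M w : ℤ) = z)
    ⟨alen b, fun z ⟨w, hw, hwz⟩ => hwz ▸ hb' w hw.2⟩
    ⟨_, 1, ⟨one_mem _, by rw [tl_one]; simpa using hb⟩, rfl⟩
  refine ⟨w, hw, hd, fun s hs hlt hmem => ?_⟩
  have h1 := hz _ ⟨w * M.simple s, ⟨mul_mem hw (simple_mem_parab (cs := M.toCoxeterSystem) hs), by
    rw [tl_mul_simple hlt, mul_inv_rev, mul_assoc]; exact hmem⟩, rfl⟩
  rw [← hwz] at h1
  have : (len M w : ℤ) < len M (w * M.simple s) := by exact_mod_cast hlt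
  linarith

theorem exists_maxSimpleR {b : ArtinGroup M} (hb : b ∈ PM M U) : ∃ w, MaxSimpleR U b w := by
  have hb' : ∀ w : M.Group, b * (tl w)⁻¹ ∈ PM M U → (len M w : ℤ) ≤ alen b := fun w hw => by
    have := alen_nonneg hw
    rw [alen_mul, alen_inv, alen_tl] at this
    linarith
  obtain ⟨z, ⟨w, ⟨hw, hd⟩, hwz⟩, hz⟩ := Int.exists_greatest_of_bdd
    (P := fun z => ∃ w : M.Group, (w ∈ WP M U ∧ b * (tl w)⁻¹ ∈ PM M U) ∧ (len M w : ℤ) = z)
    ⟨alen b, fun z ⟨w, hw, hwz⟩ => hwz ▸ hb' w hw.2⟩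
    ⟨_, 1, ⟨one_mem _, by rw [tl_one]; simpa using hb⟩, rfl⟩
  refine ⟨w, hw, hd, fun s hs hlt hmem => ?_⟩
  have h1 := hz _ ⟨M.simple s * w, ⟨mul_mem (simple_mem_parab (cs := M.toCoxeterSystem) hs) hw, by
    rw [tl_simple_mul hlt, mul_inv_rev, ← mul_assoc]; exact hmem⟩, rfl⟩
  rw [← hwz] at h1
  have : (len M w : ℤ) < len M (M.simple s * w) := by exact_mod_cast hlt
  linarith

/-- left descents of a simple divisor are left atoms -/
theorem atom_of_left_desc {b : ArtinGroup M} {w : M.Group} (hw : w ∈ WP M U)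
    (hd : (tl w)⁻¹ * b ∈ PM M U) {s : S} (h : len M (M.simple s * w) < len M w) :
    (artinGen M s)⁻¹ * b ∈ PM M U := by
  have hs : s ∈ U := by
    have h1 : M.toCoxeterSystem.length (w⁻¹ * M.simple s) < M.toCoxeterSystem.length w⁻¹ := by
      have h2 := len_inv (M := M) w
      have h3 := len_inv (M := M) (M.simple s * w)
      rw [mul_inv_rev, simple_inv] at h3
      simp only [len_def] at h h2 h3
      omega
    exact desc_mem (cs := M.toCoxeterSystem) (inv_mem hw) h1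
  have h1 : (artinGen M s)⁻¹ * b = tl (M.simple s * w) * ((tl w)⁻¹ * b) := by
    conv_rhs => rw [tl_eq_mul_of_left_desc h]
    group
  rw [h1]
  exact mul_mem (tl_mem_PM (mul_mem (simple_mem_parab (cs := M.toCoxeterSystem) hs) hw)) hd

/-- right descents of a simple divisor are right atoms -/
theorem atom_of_right_desc {b : ArtinGroup M} {w : M.Group} (hw : w ∈ WP M U)
    (hd : b * (tl w)⁻¹ ∈ PM M U) {s : S} (h : len M (w * M.simple s) < len M w) :
    b * (artinGen M s)⁻¹ ∈ PM M U := by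
  have hs : s ∈ U := desc_mem (cs := M.toCoxeterSystem) hw h
  have h1 : b * (artinGen M s)⁻¹ = b * (tl w)⁻¹ * tl (w * M.simple s) := by
    conv_rhs => rw [tl_eq_mul_of_desc h]
    group
  rw [h1]
  exact mul_mem hd (tl_mem_PM (mul_mem hw (simple_mem_parab (cs := M.toCoxeterSystem) hs)))

end Vale.Agent.P203.Gar
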