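import Vale.Agent.P203.Gar.Delta

/-! P203, block GAR, part 3: the anti-automorphism `rev`, and the least common multiple of atoms
(from an abstract form of Lemma N). -/

namespace Vale.Agent.P203.Gar

open CoxeterSystem Vale.Agent.P203.Cox

variable {S : Type} {M : CoxeterMatrix S} {T U : Set S}

/-! ### The anti-automorphism -/

theorem braided_op : ∀ r ∈ braidRelators M,
    FreeGroup.lift (fun s => MulOpposite.op (artinGen M s)) r = 1 := by
  rintro r ⟨s, t, h, rfl⟩
  have h1 := isBraided_artinGen M s t h
  have key : ∀ ω : List S, (ω.map fun s => MulOpposite.op (artinGen M s)).prod =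
      MulOpposite.op ((ω.reverse.map (artinGen M)).prod) := by
    intro ω
    induction ω with
    | nil => simp
    | cons i ω ih =>
      rw [List.map_cons, List.prod_cons, ih, List.reverse_cons, List.map_append, List.prod_append,
        MulOpposite.op_mul]
      simp
  have key2 : ∀ (i j : S) (m : ℕ), (alternatingWord i j m).reverse =
      if Even m then alternatingWord j i m else alternatingWord i j m := by
    intro i j m
    induction m generalizing i j with
    | zero => simp [alternatingWord]
    | succ m ih =>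
      conv_lhs => rw [alternatingWord_succ, List.concat_eq_append, List.reverse_append, ih]
      by_cases hm : Even m
      · have hm1 : ¬ Even (m + 1) := by simpa [Nat.even_add_one] using hm
        rw [if_pos hm, if_neg hm1, alternatingWord_succ', if_pos hm]
        simp
      · have hm1 : Even (m + 1) := by simpa [Nat.even_add_one] using hm
        rw [if_neg hm, if_pos hm1, alternatingWord_succ', if_neg hm]
        simp
  rw [map_mul, map_inv, mul_inv_eq_one, map_list_prod, map_list_prod, List.map_map, List.map_map]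
  have e1 : (⇑(FreeGroup.lift fun s => MulOpposite.op (artinGen M s)) ∘ FreeGroup.of) =
      fun s => MulOpposite.op (artinGen M s) := by
    funext s; simp
  rw [e1, key, key, key2, key2]
  split_ifs
  · rw [h1]
  · rw [h1]

/-- the anti-automorphism of the Artin group fixing the generators -/
noncomputable def rev (a : ArtinGroup M) : ArtinGroup M :=
  MulOpposite.unop (PresentedGroup.toGroup (braided_op (M := M)) a)

theorem rev_one : rev (1 : ArtinGroup M) = 1 := by simp [rev]

theorem rev_mul (a b : ArtinGroup M) : rev (a * b) = rev b * rev a := by simp [rev]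

theorem rev_inv (a : ArtinGroup M) : rev a⁻¹ = (rev a)⁻¹ := by simp [rev]

theorem rev_gen (s : S) : rev (artinGen M s) = artinGen M s := by
  simp only [rev, artinGen, PresentedGroup.toGroup.of, MulOpposite.unop_op]

theorem rev_mem_PM {a : ArtinGroup M} (ha : a ∈ PM M T) : rev a ∈ PM M T := by
  refine PM_induction_left (p := fun a => rev a ∈ PM M T) (by simp [rev_one])
    (fun t ht b _ hb => ?_) ha
  rw [rev_mul, rev_gen]
  exact mul_mem hb (gen_mem_PM ht)

theorem rev_prod (ω : List S) : rev (ω.map (artinGen M)).prod =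
    (ω.reverse.map (artinGen M)).prod := by
  induction ω with
  | nil => simp [rev_one]
  | cons i ω ih =>
    rw [List.map_cons, List.prod_cons, rev_mul, ih, rev_gen, List.reverse_cons, List.map_append,
      List.prod_append]
    simp

theorem rev_tl (w : M.Group) : rev (tl w) = tl w⁻¹ := by
  obtain ⟨ω, hω, rfl⟩ := M.toCoxeterSystem.exists_isReduced w
  rw [← M.toCoxeterSystem.wordProd_reverse, tl, tl, lift_wordProd (isBraided_artinGen M) hω,
    lift_wordProd (isBraided_artinGen M) hω.reverse, rev_prod]

theorem rev_rev (a : ArtinGroup M) : rev (rev a) = a := by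
  have : ∀ a : ArtinGroup M, rev (rev a) = a := by
    let f : ArtinGroup M →* ArtinGroup M :=
      { toFun := fun a => rev (rev a)
        map_one' := by simp [rev_one]
        map_mul' := fun a b => by simp [rev_mul] }
    have hf : f = MonoidHom.id _ := by
      refine PresentedGroup.ext fun s => ?_
      change rev (rev (artinGen M s)) = artinGen M s
      rw [rev_gen, rev_gen]
    intro a
    exact DFunLike.congr_fun hf a
  exact this a

theorem rev_mem_PM_iff {a : ArtinGroup M} : rev a ∈ PM M T ↔ a ∈ PM M T :=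
  ⟨fun h => by rw [← rev_rev a]; exact rev_mem_PM h, rev_mem_PM⟩

theorem rev_Dl [Finite (WP M T)] : rev (Dl M T) = Dl M T := by
  rw [rev_tl]
  congr 1
  exact w0_inv

/-! ### Least common multiples of atoms -/

/-- The left atoms of an element of the monoid are left descents of its maximal simple left
divisors.  (This is what Lemma N gives.) -/
def LemmaN (M : CoxeterMatrix S) (U : Set S) : Prop :=
  ∀ b ∈ PM M U, ∀ w, MaxSimpleL U b w → ∀ r ∈ U, (artinGen M r)⁻¹ * b ∈ PM M U →
    len M (M.simple r * w) < len M w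

/-- Lemma N from a vanishing predicate: `Kill b r` (meaning `C_b(S_r) = 0`). -/
theorem lemmaN_of_kill (Kill : ArtinGroup M → S → Prop)
    (h1 : ∀ b ∈ PM M U, ∀ r ∈ U, (artinGen M r)⁻¹ * b ∈ PM M U → Kill b r)
    (h2 : ∀ b ∈ PM M U, ∀ w, MaxSimpleL U b w → ∀ r ∈ U, len M w < len M (M.simple r * w) →
      ¬ Kill b r) : LemmaN M U := by
  intro b hb w hw r hr hd
  by_contra hcon
  have h3 : len M w < len M (M.simple r * w) := by
    rcases len_simple_mul w r with h | h <;> omega
  exact h2 b hb w hw r hr h3 (h1 b hb r hr hd)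

theorem isMax_inv {w : M.Group} {R : Set S} (h : ∀ r ∈ R, len M (M.simple r * w) < len M w) :
    IsMax M.toCoxeterSystem R w⁻¹ := by
  intro r hr
  have h1 := h r hr
  rw [← len_inv w, ← len_inv (M.simple r * w), mul_inv_rev, simple_inv] at h1
  exact h1

/-- all of `R` are left descents of `w`: then `w = w₀(R) u` with additive lengths -/
theorem tl_eq_Dl_mul {w : M.Group} {R : Set S} (hR : R.Finite)
    (h : ∀ r ∈ R, len M (M.simple r * w) < len M w) (hw : w ∈ WP M U) :
    Finite (WP M R) ∧ ∃ u ∈ WP M U, tl w = Dl M R * tl u := by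
  have h1 := isMax_inv h
  have hfin : Finite (WP M R) := finite_parab_of_isMax hR h1
  obtain ⟨u, _, h2, h3⟩ := exists_mul_w0_of_isMax hR h1
  have h4 : w = wo M R * u⁻¹ := by
    rw [← inv_inv w, h2, mul_inv_rev]
    congr 1
    exact w0_inv
  refine ⟨hfin, u⁻¹, ?_, ?_⟩
  · have hRU : R ⊆ U := fun r hr => by
      exact desc_mem (cs := M.toCoxeterSystem) (inv_mem hw) (h1 r hr)
    have h5 : u⁻¹ = (wo M R)⁻¹ * w := by rw [h4]; group
    rw [h5]
    exact mul_mem (inv_mem (parab_mono hRU w0_mem)) hw
  · rw [← tl_mul, ← h4]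
    rw [← h4, len_inv, ← len_inv w]
    simp only [len_def]
    rw [h3, add_comm]

/-- LCM of left atoms -/
theorem lcm_left (hN : LemmaN M U) {R : Set S} (hR : R.Finite) (hRU : R ⊆ U) {b : ArtinGroup M}
    (hb : b ∈ PM M U) (h : ∀ r ∈ R, (artinGen M r)⁻¹ * b ∈ PM M U) :
    Finite (WP M R) ∧ (Dl M R)⁻¹ * b ∈ PM M U := by
  obtain ⟨w, hw⟩ := exists_maxSimpleL hb
  obtain ⟨hfin, u, hu, he⟩ := tl_eq_Dl_mul (U := U) hR
    (fun r hr => hN b hb w hw r (hRU hr) (h r hr)) hw.mem
  refine ⟨hfin, ?_⟩
  have h1 : (Dl M R)⁻¹ * b = tl u * ((tl w)⁻¹ * b) := by rw [he]; group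
  rw [h1]
  exact mul_mem (tl_mem_PM hu) hw.dvd

/-- LCM of right atoms -/
theorem lcm_right (hN : LemmaN M U) {R : Set S} (hR : R.Finite) (hRU : R ⊆ U) {b : ArtinGroup M}
    (hb : b ∈ PM M U) (h : ∀ r ∈ R, b * (artinGen M r)⁻¹ ∈ PM M U) :
    Finite (WP M R) ∧ b * (Dl M R)⁻¹ ∈ PM M U := by
  obtain ⟨hfin, h1⟩ := lcm_left hN hR hRU (rev_mem_PM hb) (fun r hr => by
    have := rev_mem_PM (h r hr)
    rwa [rev_mul, rev_inv, rev_gen] at this)
  refine ⟨hfin, ?_⟩
  rw [← rev_mem_PM_iff, rev_mul, rev_inv, rev_Dl]
  exact h1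

end Vale.Agent.P203.Gar
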