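import Vale.Agent.P203.Gar.Matsumoto
import Vale.Agent.P203.Cox0.Long
import Vale.Agent.P203.Bdl.B1

/-! P203, block GAR, part 1: the canonical lift `W → A` is multiplicative on length-additive
products; degree; the projection `A → W`; subgroups and submonoids generated by subsets of the
generators.  Everything for an arbitrary Coxeter matrix. -/

namespace Vale.Agent.P203.Gar

open CoxeterSystem Vale.Agent.P203.Cox

variable {S : Type} {M : CoxeterMatrix S}

/-! ### Simple facts on `len` -/

theorem len_def (w : M.Group) : len M w = M.toCoxeterSystem.length w := rfl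

theorem len_simple (s : S) : len M (M.simple s) = 1 := M.toCoxeterSystem.length_simple s

theorem len_inv (w : M.Group) : len M w⁻¹ = len M w := M.toCoxeterSystem.length_inv w

theorem len_mul_simple (w : M.Group) (s : S) :
    len M (w * M.simple s) = len M w + 1 ∨ len M (w * M.simple s) + 1 = len M w :=
  M.toCoxeterSystem.length_mul_simple w s

theorem len_simple_mul (w : M.Group) (s : S) :
    len M (M.simple s * w) = len M w + 1 ∨ len M (M.simple s * w) + 1 = len M w :=
  M.toCoxeterSystem.length_simple_mul w s

theorem simple_mul_self (s : S) : M.simple s * M.simple s = 1 :=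
  M.toCoxeterSystem.simple_mul_simple_self s

theorem simple_inv (s : S) : (M.simple s)⁻¹ = M.simple s := M.toCoxeterSystem.inv_simple s

/-! ### The lift -/

theorem isBraided_artinGen (M : CoxeterMatrix S) : IsBraided M (artinGen M) := by
  intro i j hij
  have h := PresentedGroup.one_of_mem (rels := braidRelators M)
    (x := ((alternatingWord i j (M i j)).map FreeGroup.of).prod *
      (((alternatingWord j i (M i j)).map FreeGroup.of).prod)⁻¹) ⟨i, j, hij, rfl⟩
  rw [map_mul, map_inv, mul_inv_eq_one, map_list_prod, map_list_prod, List.map_map,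
    List.map_map] at h
  exact h

theorem isBraided_simple (M : CoxeterMatrix S) : IsBraided M M.simple := fun i j _ =>
  wordProd_alternatingWord_comm M.toCoxeterSystem i j

section lift

variable {G : Type} [Group G] {γ : S → G}

theorem lift_wordProd (hγ : IsBraided M γ) {ω : List S} (hω : M.toCoxeterSystem.IsReduced ω) :
    lift M γ (M.toCoxeterSystem.wordProd ω) = (ω.map γ).prod := by
  have h := redWord_spec M (M.toCoxeterSystem.wordProd ω)
  exact matsumoto M.toCoxeterSystem hγ h.1 hω h.2.symm

theorem lift_mul (hγ : IsBraided M γ) {w w' : M.Group} (h : len M (w * w') = len M w + len M w') :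
    lift M γ (w * w') = lift M γ w * lift M γ w' := by
  obtain ⟨ω, hω, rfl⟩ := M.toCoxeterSystem.exists_isReduced w
  obtain ⟨ω', hω', rfl⟩ := M.toCoxeterSystem.exists_isReduced w'
  have hr : M.toCoxeterSystem.IsReduced (ω ++ ω') := by
    unfold CoxeterSystem.IsReduced
    rw [M.toCoxeterSystem.wordProd_append, ← len_def, h, List.length_append, len_def, len_def, hω,
      hω']
  rw [← M.toCoxeterSystem.wordProd_append, lift_wordProd hγ hr, lift_wordProd hγ hω,
    lift_wordProd hγ hω', List.map_append, List.prod_append]

theorem lift_simple (hγ : IsBraided M γ) (s : S) : lift M γ (M.simple s) = γ s := by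
  have hr : M.toCoxeterSystem.IsReduced [s] := by
    unfold CoxeterSystem.IsReduced
    simpa using M.toCoxeterSystem.length_simple s
  have h := lift_wordProd hγ hr
  simpa using h

theorem lift_mul_simple (hγ : IsBraided M γ) {w : M.Group} {s : S}
    (h : len M w < len M (w * M.simple s)) : lift M γ (w * M.simple s) = lift M γ w * γ s := by
  rw [lift_mul hγ, lift_simple hγ]
  rw [len_simple]
  rcases len_mul_simple w s with h' | h' <;> omega

theorem lift_simple_mul (hγ : IsBraided M γ) {w : M.Group} {s : S}
    (h : len M w < len M (M.simple s * w)) : lift M γ (M.simple s * w) = γ s * lift M γ w := by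
  rw [lift_mul hγ, lift_simple hγ]
  rw [len_simple]
  rcases len_simple_mul w s with h' | h' <;> omega

/-- for `γ = M.simple` the lift is the identity -/
theorem lift_id (w : M.Group) : lift M M.simple w = w := by
  obtain ⟨ω, hω, rfl⟩ := M.toCoxeterSystem.exists_isReduced w
  exact lift_wordProd (isBraided_simple M) hω

theorem map_lift {G' : Type} [Group G'] (f : G →* G') (w : M.Group) :
    f (lift M γ w) = lift M (fun s => f (γ s)) w := by
  unfold lift
  rw [map_list_prod, List.map_map]
  rfl

end lift

/-! ### The canonical lift to the Artin group -/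

/-- the canonical lift `W → A` -/
noncomputable abbrev tl (w : M.Group) : ArtinGroup M := lift M (artinGen M) w

theorem tl_one : tl (1 : M.Group) = 1 := lift_one M _

theorem tl_mul {w w' : M.Group} (h : len M (w * w') = len M w + len M w') :
    tl (w * w') = tl w * tl w' := lift_mul (isBraided_artinGen M) h

theorem tl_simple (s : S) : tl (M.simple s) = artinGen M s := lift_simple (isBraided_artinGen M) s

theorem tl_mul_simple {w : M.Group} {s : S} (h : len M w < len M (w * M.simple s)) :
    tl (w * M.simple s) = tl w * artinGen M s := lift_mul_simple (isBraided_artinGen M) h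

theorem tl_simple_mul {w : M.Group} {s : S} (h : len M w < len M (M.simple s * w)) :
    tl (M.simple s * w) = artinGen M s * tl w := lift_simple_mul (isBraided_artinGen M) h

/-- if `s` is a right descent of `w` then `σ_s` is the last letter of the lift of `w` -/
theorem tl_eq_mul_of_desc {w : M.Group} {s : S} (h : len M (w * M.simple s) < len M w) :
    tl w = tl (w * M.simple s) * artinGen M s := by
  have h1 : len M (w * M.simple s) < len M (w * M.simple s * M.simple s) := by
    rwa [mul_assoc, simple_mul_self, mul_one]
  rw [← tl_mul_simple h1, mul_assoc, simple_mul_self, mul_one]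

theorem tl_eq_mul_of_left_desc {w : M.Group} {s : S} (h : len M (M.simple s * w) < len M w) :
    tl w = artinGen M s * tl (M.simple s * w) := by
  have h1 : len M (M.simple s * w) < len M (M.simple s * (M.simple s * w)) := by
    rwa [← mul_assoc, simple_mul_self, one_mul]
  rw [← tl_simple_mul h1, ← mul_assoc, simple_mul_self, one_mul]

/-- the projection `A → W` -/
noncomputable def toW (M : CoxeterMatrix S) : ArtinGroup M →* M.Group :=
  PresentedGroup.toGroup (f := M.simple) (by
    rintro r ⟨s, t, h, rfl⟩
    rw [map_mul, map_inv, mul_inv_eq_one, map_list_prod, map_list_prod, List.map_map,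
      List.map_map]
    have := isBraided_simple M s t h
    simpa [Function.comp_def] using this)

theorem toW_gen (s : S) : toW M (artinGen M s) = M.simple s := by
  simp only [toW, artinGen, PresentedGroup.toGroup.of]

theorem toW_tl (w : M.Group) : toW M (tl w) = w := by
  rw [tl, map_lift]
  simp only [toW_gen]
  exact lift_id w

theorem tl_injective : Function.Injective (tl : M.Group → ArtinGroup M) := fun w w' h => by
  rw [← toW_tl w, ← toW_tl w', h]

/-! ### Degree -/

/-- the degree (exponent sum) of an element of the Artin group -/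
noncomputable def alen (a : ArtinGroup M) : ℤ := Multiplicative.toAdd (degHom M a)

theorem alen_one : alen (1 : ArtinGroup M) = 0 := by simp [alen]

theorem alen_mul (a b : ArtinGroup M) : alen (a * b) = alen a + alen b := by simp [alen]

theorem alen_inv (a : ArtinGroup M) : alen a⁻¹ = -alen a := by simp [alen]

theorem alen_gen (s : S) : alen (artinGen M s) = 1 := by simp [alen, degHom_gen]

theorem alen_tl (w : M.Group) : alen (tl w) = len M w := by
  rw [alen, tl, degHom_lift]; rfl

/-! ### Standard subgroups and submonoids -/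

/-- the subgroup `A_T` of the Artin group generated by the `σ_t`, `t ∈ T` -/
def AP (M : CoxeterMatrix S) (T : Set S) : Subgroup (ArtinGroup M) :=
  Subgroup.closure (artinGen M '' T)

/-- the submonoid of the Artin group generated by the `σ_t`, `t ∈ T` -/
def PM (M : CoxeterMatrix S) (T : Set S) : Submonoid (ArtinGroup M) :=
  Submonoid.closure (artinGen M '' T)

/-- the standard parabolic subgroup `W_T` -/
abbrev WP (M : CoxeterMatrix S) (T : Set S) : Subgroup M.Group := parab M.toCoxeterSystem T

variable {T U : Set S}

theorem gen_mem_AP {t : S} (ht : t ∈ T) : artinGen M t ∈ AP M T :=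
  Subgroup.subset_closure ⟨t, ht, rfl⟩

theorem gen_mem_PM {t : S} (ht : t ∈ T) : artinGen M t ∈ PM M T :=
  Submonoid.subset_closure ⟨t, ht, rfl⟩

theorem PM_le_AP : PM M T ≤ (AP M T).toSubmonoid := Submonoid.closure_le.2 fun _ hx =>
  Subgroup.subset_closure hx

theorem mem_AP_of_PM {a : ArtinGroup M} (h : a ∈ PM M T) : a ∈ AP M T := PM_le_AP h

theorem AP_mono (h : T ⊆ U) : AP M T ≤ AP M U := Subgroup.closure_mono (Set.image_mono h)

theorem PM_mono (h : T ⊆ U) : PM M T ≤ PM M U := Submonoid.closure_mono (Set.image_mono h)

theorem prod_mem_PM {ω : List S} (h : ∀ i ∈ ω, i ∈ T) : (ω.map (artinGen M)).prod ∈ PM M T :=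
  Submonoid.list_prod_mem _ fun x hx => by
    obtain ⟨i, hi, rfl⟩ := List.mem_map.1 hx
    exact gen_mem_PM (h i hi)

theorem exists_word_of_mem_PM {a : ArtinGroup M} (h : a ∈ PM M T) :
    ∃ ω : List S, (∀ i ∈ ω, i ∈ T) ∧ a = (ω.map (artinGen M)).prod := by
  unfold PM at h
  induction h using Submonoid.closure_induction with
  | mem x hx =>
    obtain ⟨t, ht, rfl⟩ := hx
    exact ⟨[t], by simpa using ht, by simp⟩
  | one => exact ⟨[], by simp, by simp⟩
  | mul x y _ _ hx hy =>
    obtain ⟨ω, h1, rfl⟩ := hx
    obtain ⟨ω', h2, rfl⟩ := hy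
    refine ⟨ω ++ ω', fun i hi => ?_, by simp⟩
    rcases List.mem_append.1 hi with h | h
    · exact h1 i h
    · exact h2 i h

theorem tl_mem_PM {w : M.Group} (hw : w ∈ WP M T) : tl w ∈ PM M T := by
  obtain ⟨h1, h2⟩ := redWord_spec M w
  rw [tl, lift]
  exact prod_mem_PM fun i hi => mem_of_reduced h1 (by rw [← h2]; exact hw) i hi

theorem tl_mem_AP {w : M.Group} (hw : w ∈ WP M T) : tl w ∈ AP M T := mem_AP_of_PM (tl_mem_PM hw)

theorem toW_mem_WP {a : ArtinGroup M} (ha : a ∈ AP M T) : toW M a ∈ WP M T := by
  unfold AP at ha
  induction ha using Subgroup.closure_induction with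
  | mem x hx =>
    obtain ⟨t, ht, rfl⟩ := hx
    rw [toW_gen]
    exact simple_mem_parab (cs := M.toCoxeterSystem) ht
  | one => rw [map_one]; exact one_mem _
  | mul x y _ _ hx hy => rw [map_mul]; exact mul_mem hx hy
  | inv x _ hx => rw [map_inv]; exact inv_mem hx

theorem alen_prod (ω : List S) : alen (ω.map (artinGen M)).prod = ω.length := by
  induction ω with
  | nil => simp [alen_one]
  | cons i ω ih =>
    rw [List.map_cons, List.prod_cons, alen_mul, alen_gen, ih, List.length_cons]
    push_cast
    ring

theorem alen_nonneg {a : ArtinGroup M} (ha : a ∈ PM M T) : 0 ≤ alen a := by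
  obtain ⟨ω, _, rfl⟩ := exists_word_of_mem_PM ha
  rw [alen_prod]
  exact Int.natCast_nonneg _

theorem eq_one_of_alen {a : ArtinGroup M} (ha : a ∈ PM M T) (h : alen a = 0) : a = 1 := by
  obtain ⟨ω, _, rfl⟩ := exists_word_of_mem_PM ha
  rw [alen_prod] at h
  have h1 : ω = [] := List.length_eq_zero_iff.1 (by exact_mod_cast h)
  rw [h1]; simp

theorem eq_one_of_inv_mem {a : ArtinGroup M} (ha : a ∈ PM M T) (h : a⁻¹ ∈ PM M U) : a = 1 := by
  refine eq_one_of_alen ha ?_
  have h1 := alen_nonneg ha
  have h2 := alen_nonneg h
  rw [alen_inv] at h2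
  omega

/-- an element of the monoid is trivial or starts with a generator -/
theorem exists_left_of_mem_PM {a : ArtinGroup M} (ha : a ∈ PM M T) (h : a ≠ 1) :
    ∃ t ∈ T, ∃ b ∈ PM M T, a = artinGen M t * b := by
  obtain ⟨ω, h1, rfl⟩ := exists_word_of_mem_PM ha
  cases ω with
  | nil => simp at h
  | cons i ω =>
    exact ⟨i, h1 i (by simp), _, prod_mem_PM (ω := ω) fun j hj => h1 j (by simp [hj]), by simp⟩

/-- an element of the monoid is trivial or ends with a generator -/
theorem exists_right_of_mem_PM {a : ArtinGroup M} (ha : a ∈ PM M T) (h : a ≠ 1) :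
    ∃ t ∈ T, ∃ b ∈ PM M T, a = b * artinGen M t := by
  obtain ⟨ω, h1, rfl⟩ := exists_word_of_mem_PM ha
  rcases List.eq_nil_or_concat ω with h2 | ⟨ω', i, h2⟩
  · subst h2; simp at h
  · subst h2
    simp only [List.concat_eq_append] at h1 ⊢
    exact ⟨i, h1 i (by simp), _, prod_mem_PM (ω := ω') fun j hj => h1 j (by simp [hj]), by simp⟩

/-- induction on the monoid, adding a generator on the left -/
theorem PM_induction_left {p : ArtinGroup M → Prop} (h1 : p 1)
    (hmul : ∀ t ∈ T, ∀ b ∈ PM M T, p b → p (artinGen M t * b)) {a : ArtinGroup M}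
    (ha : a ∈ PM M T) : p a := by
  obtain ⟨ω, h, rfl⟩ := exists_word_of_mem_PM ha
  clear ha
  induction ω with
  | nil => simpa using h1
  | cons i ω ih =>
    rw [List.map_cons, List.prod_cons]
    exact hmul i (h i (by simp)) _ (prod_mem_PM fun j hj => h j (by simp [hj]))
      (ih fun j hj => h j (by simp [hj]))

/-- induction on the monoid, adding a generator on the right -/
theorem PM_induction_right {p : ArtinGroup M → Prop} (h1 : p 1)
    (hmul : ∀ b ∈ PM M T, ∀ t ∈ T, p b → p (b * artinGen M t)) {a : ArtinGroup M}
    (ha : a ∈ PM M T) : p a := by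
  obtain ⟨ω, h, rfl⟩ := exists_word_of_mem_PM ha
  clear ha
  induction ω using List.reverseRecOn with
  | nil => simpa using h1
  | append_singleton ω i ih =>
    rw [List.map_append, List.prod_append, List.map_singleton, List.prod_singleton]
    exact hmul _ (prod_mem_PM fun j hj => h j (by simp [hj])) i (h i (by simp))
      (ih fun j hj => h j (by simp [hj]))

end Vale.Agent.P203.Gar
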