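import Vale.Agent.P203.Cox0.GeomRep

/-! Matsumoto's theorem for an arbitrary Coxeter system. -/

namespace Vale.Agent.P203.Gar

open CoxeterSystem Vale.Agent.P203.Cox

variable {B : Type*} {W : Type*} [Group W] {M : CoxeterMatrix B} (cs : CoxeterSystem M W)

theorem act_desc_neg {w : W} {i : B} (h : cs.length (w * cs.simple i) < cs.length w) :
    NN (-(act cs w (Finsupp.single i 1))) := by
  have h1 : NN (act cs (w * cs.simple i) (Finsupp.single i 1)) := by
    refine act_single_NN (cs := cs) _ (w * cs.simple i) i rfl ?_
    rwa [cs.simple_mul_simple_cancel_right]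
  rwa [act_mul_apply, act_simple_self, map_neg] at h1

theorem not_NN_of_desc {w : W} {i : B} (h : cs.length (w * cs.simple i) < cs.length w) :
    ¬ NN (act cs w (Finsupp.single i 1)) := by
  intro h2
  have h3 := eq_zero_of_NN h2 (act_desc_neg cs h)
  have h4 := congrArg (act cs w⁻¹) h3
  rw [act_inv_apply_self, map_zero] at h4
  have h5 := congrArg (fun v => v i) h4
  simp at h5

/-- If two different simple reflections are right descents of `w`, then `w` ends with the
longest element of the dihedral group generated by them. -/
theorem exists_alternating_of_descents {w : W} {i j : B} (hij : i ≠ j)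
    (hi : cs.length (w * cs.simple i) < cs.length w)
    (hj : cs.length (w * cs.simple j) < cs.length w) :
    M i j ≠ 0 ∧ ∃ v, w = v * cs.wordProd (alternatingWord i j (M i j)) ∧
      cs.length w = cs.length v + M i j := by
  set alt : ℕ → W := fun k => cs.wordProd (CoxeterSystem.alternatingWord i j k) with halt
  have halt_len : ∀ k, cs.length (alt k) ≤ k := fun k => by
    have := cs.length_wordProd_le (CoxeterSystem.alternatingWord i j k)
    rwa [CoxeterSystem.length_alternatingWord] at this
  set D : Set ℕ := {k | cs.length (w * (alt k)⁻¹) + k = cs.length w} with hD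
  have hDb : ∀ k ∈ D, k ≤ cs.length w := fun k hk => by
    simp only [hD, Set.mem_ofPred_eq] at hk; omega
  have hsucc : ∀ k, alt (k + 1) = cs.simple (if Even k then j else i) * alt k := fun k => by
    simp only [halt]
    rw [CoxeterSystem.alternatingWord_succ', cs.wordProd_cons]
  have h1 : 1 ∈ D := by
    simp only [hD, Set.mem_ofPred_eq]
    have : alt 1 = cs.simple j := by
      rw [hsucc 0]; simp only [Even.zero, ↓reduceIte, halt, CoxeterSystem.alternatingWord, CoxeterSystem.wordProd_nil, mul_one]
    rw [this, cs.inv_simple]
    rcases cs.length_mul_simple w j with h | h <;> omega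
  obtain ⟨k, hkD, hkmax⟩ : ∃ k ∈ D, ∀ k' ∈ D, k' ≤ k := by
    have hfin : D.Finite := (Set.finite_Iic (cs.length w)).subset hDb
    obtain ⟨k, hk, hk'⟩ := hfin.exists_maximalFor id D ⟨1, h1⟩
    refine ⟨k, hk, fun k' hk1 => ?_⟩
    by_contra hlt
    have := hk' hk1 (by simp; omega)
    simp at this
    omega
  have hk1 : 1 ≤ k := hkmax 1 h1
  set v : W := w * (alt k)⁻¹ with hv
  have hvl : cs.length v + k = cs.length w := hkD
  have hw_eq : w = v * alt k := by rw [hv]; simp
  -- the two ascents of v
  have hx : cs.length v < cs.length (v * cs.simple (if Even k then j else i)) := by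
    by_contra hcon
    have hlt : cs.length (v * cs.simple (if Even k then j else i)) + 1 = cs.length v := by
      rcases cs.length_mul_simple v (if Even k then j else i) with h | h <;> omega
    have : k + 1 ∈ D := by
      simp only [hD, Set.mem_ofPred_eq]
      rw [hsucc k, mul_inv_rev, cs.inv_simple, ← mul_assoc, ← hv]
      omega
    have := hkmax _ this
    omega
  obtain ⟨k', rfl⟩ : ∃ k', k = k' + 1 := ⟨k - 1, by omega⟩
  have hy : cs.length v < cs.length (v * cs.simple (if Even k' then j else i)) := by
    have e1 : v * cs.simple (if Even k' then j else i) = w * (alt k')⁻¹ := by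
      rw [hv, hsucc k', mul_inv_rev, cs.inv_simple, ← mul_assoc, mul_assoc _ (cs.simple _)]
      simp only [CoxeterSystem.simple_mul_simple_self, mul_one]
    have e2 := cs.length_le_length_mul_add_right (w * (alt k')⁻¹) (alt k')
    have e3 : cs.length w ≤ cs.length (w * (alt k')⁻¹) + cs.length (alt k') := by
      have := cs.length_mul_le (w * (alt k')⁻¹) (alt k')
      simpa only [ge_iff_le, inv_mul_cancel_right] using this
    have e4 := halt_len k'
    rw [e1]
    omega
  -- both generators
  have hi' : cs.length v < cs.length (v * cs.simple i) ∧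
      cs.length v < cs.length (v * cs.simple j) := by
    by_cases hk : Even k'
    · have : ¬ Even (k' + 1) := by simpa only [Nat.even_add_one, Nat.not_even_iff_odd, Nat.not_odd_iff_even] using hk
      rw [if_neg this] at hx
      rw [if_pos hk] at hy
      exact ⟨hx, hy⟩
    · have : Even (k' + 1) := by simpa only [Nat.even_add_one, Nat.not_even_iff_odd] using hk
      rw [if_pos this] at hx
      rw [if_neg hk] at hy
      exact ⟨hy, hx⟩
  have p1 := act_single_NN (cs := cs) _ v i rfl hi'.1
  have p2 := act_single_NN (cs := cs) _ v j rfl hi'.2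
  -- bound on k
  have hb : ¬ (M i j = 0 ∨ k' + 1 + 1 ≤ M i j) := by
    intro hb
    have c1 : 0 ≤ chs (-gram M i j) (k' + 1 + 1) := chs_nonneg hb hij
    have c2 : 0 ≤ chs (-gram M i j) (k' + 1) :=
      chs_nonneg (hb.imp id (fun h => by omega)) hij
    refine not_NN_of_desc cs hi ?_
    rw [hw_eq, act_mul_apply]
    simp only [halt]
    rw [act_alternatingWord]
    split_ifs
    · rw [map_add, map_smul, map_smul]
      exact (p1.smul c1).add (p2.smul c2)
    · rw [map_add, map_smul, map_smul]
      exact (p1.smul c2).add (p2.smul c1)
  push Not at hb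
  have hred : cs.IsReduced (CoxeterSystem.alternatingWord i j (k' + 1)) := by
    unfold CoxeterSystem.IsReduced
    rw [CoxeterSystem.length_alternatingWord]
    apply le_antisymm (halt_len (k' + 1))
    have := cs.length_mul_le v (alt (k' + 1))
    rw [← hw_eq] at this
    simp only [halt] at this ⊢
    omega
  have hle : k' + 1 ≤ M i j := by
    by_contra hgt
    exact cs.not_isReduced_alternatingWord i j hb.1 (by omega) hred
  have hkM : k' + 1 = M i j := by omega
  refine ⟨hb.1, v, ?_, ?_⟩
  · rw [hw_eq, ← hkM]
  · rw [← hkM]; omega

/-- the map `γ` satisfies the braid relations of `M` -/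
def IsBraided (M : CoxeterMatrix B) {G : Type*} [Monoid G] (γ : B → G) : Prop :=
  ∀ i j, M i j ≠ 0 → ((alternatingWord i j (M i j)).map γ).prod =
    ((alternatingWord j i (M i j)).map γ).prod

theorem wordProd_alternatingWord_comm (i j : B) :
    cs.wordProd (alternatingWord i j (M i j)) = cs.wordProd (alternatingWord j i (M i j)) := by
  have h := cs.wordProd_braidWord_eq i j
  unfold CoxeterSystem.braidWord at h
  rw [M.symmetric j i] at h
  exact h

theorem matsumoto_aux {G : Type*} [Monoid G] {γ : B → G} (hγ : IsBraided M γ) (n : ℕ) :
    ∀ ω ω' : List B, ω.length = n → cs.IsReduced ω → cs.IsReduced ω' →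
      cs.wordProd ω = cs.wordProd ω' → (ω.map γ).prod = (ω'.map γ).prod := by
  induction n with
  | zero =>
    intro ω ω' hn hω hω' he
    have h1 : ω = [] := List.length_eq_zero_iff.1 hn
    subst h1
    have h2 : ω'.length = 0 := by
      have := hω'
      unfold CoxeterSystem.IsReduced at this
      rw [← this, ← he]
      simp
    rw [List.length_eq_zero_iff.1 h2]
  | succ n ih =>
    -- words with the same last letter
    have same : ∀ (α β : List B) (i : B), (α ++ [i]).length = n + 1 → cs.IsReduced (α ++ [i]) →
        cs.IsReduced (β ++ [i]) → cs.wordProd (α ++ [i]) = cs.wordProd (β ++ [i]) →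
        ((α ++ [i]).map γ).prod = ((β ++ [i]).map γ).prod := by
      intro α β i hn hα hβ he
      rw [cs.wordProd_append, cs.wordProd_append] at he
      have he' : cs.wordProd α = cs.wordProd β := mul_right_cancel he
      have h1 : cs.IsReduced α := by
        have := hα.take α.length
        rwa [List.take_left] at this
      have h2 : cs.IsReduced β := by
        have := hβ.take β.length
        rwa [List.take_left] at this
      have h3 := ih α β (by simpa using hn) h1 h2 he'
      rw [List.map_append, List.map_append, List.prod_append, List.prod_append, h3]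
    intro ω ω' hn hω hω' he
    have hlen : ω'.length = n + 1 := by
      have h1 : cs.length (cs.wordProd ω) = ω.length := hω
      have h2 : cs.length (cs.wordProd ω') = ω'.length := hω'
      rw [← h2, ← he, h1, hn]
    obtain ⟨α, i, rfl⟩ : ∃ α i, ω = α ++ [i] := by
      rcases List.eq_nil_or_concat ω with h | ⟨α, i, h⟩
      · rw [h] at hn; simp at hn
      · exact ⟨α, i, by simpa using h⟩
    obtain ⟨β, j, rfl⟩ : ∃ β j, ω' = β ++ [j] := by
      rcases List.eq_nil_or_concat ω' with h | ⟨α, i, h⟩
      · rw [h] at hlen; simp at hlen
      · exact ⟨α, i, by simpa using h⟩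
    by_cases hij : i = j
    · subst hij
      exact same α β i hn hω hω' he
    -- both are descents
    have hdi : cs.length (cs.wordProd (α ++ [i]) * cs.simple i) < cs.length (cs.wordProd (α ++ [i])) := by
      have h1 : cs.length (cs.wordProd (α ++ [i])) = (α ++ [i]).length := hω
      rw [h1, cs.wordProd_append]
      simp only [CoxeterSystem.wordProd_singleton, CoxeterSystem.simple_mul_simple_cancel_right,
        List.length_append, List.length_singleton]
      have := cs.length_wordProd_le α
      omega
    have hdj : cs.length (cs.wordProd (α ++ [i]) * cs.simple j) < cs.length (cs.wordProd (α ++ [i])) := by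
      rw [he]
      have h1 : cs.length (cs.wordProd (β ++ [j])) = (β ++ [j]).length := hω'
      rw [h1, cs.wordProd_append]
      simp only [CoxeterSystem.wordProd_singleton, CoxeterSystem.simple_mul_simple_cancel_right,
        List.length_append, List.length_singleton]
      have := cs.length_wordProd_le β
      omega
    obtain ⟨hM, v, hv, hvl⟩ := exists_alternating_of_descents cs hij hdi hdj
    obtain ⟨ν, hν, rfl⟩ := cs.exists_isReduced v
    have hνl : cs.length (cs.wordProd ν) = ν.length := hν
    obtain ⟨m, hm⟩ : ∃ m, M i j = m + 1 := ⟨M i j - 1, by omega⟩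
    have hw1 : cs.wordProd (α ++ [i]) = cs.wordProd (ν ++ alternatingWord i j (M i j)) := by
      rw [hv, cs.wordProd_append]
    have hw2 : cs.wordProd (α ++ [i]) = cs.wordProd (ν ++ alternatingWord j i (M i j)) := by
      rw [hv, cs.wordProd_append, wordProd_alternatingWord_comm cs i j]
    have hr1 : cs.IsReduced (ν ++ alternatingWord i j (M i j)) := by
      unfold CoxeterSystem.IsReduced
      rw [← hw1, hvl, List.length_append, length_alternatingWord, hνl]
    have hr2 : cs.IsReduced (ν ++ alternatingWord j i (M i j)) := by
      unfold CoxeterSystem.IsReduced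
      rw [← hw2, hvl, List.length_append, length_alternatingWord, hνl]
    have hl1 : (ν ++ alternatingWord i j (M i j)).length = n + 1 := by
      rw [← hr1, ← hw1, ← hn]; exact hω
    have e1 : ν ++ alternatingWord i j (M i j) = (ν ++ alternatingWord j i m) ++ [j] := by
      rw [hm, alternatingWord_succ]; simp
    have e2 : ν ++ alternatingWord j i (M i j) = (ν ++ alternatingWord i j m) ++ [i] := by
      rw [hm, alternatingWord_succ]; simp
    have p2 : ((α ++ [i]).map γ).prod = ((ν ++ alternatingWord j i (M i j)).map γ).prod := by
      rw [e2]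
      rw [e2] at hr2 hw2
      exact same _ _ i hn hω hr2 hw2
    have p1 : ((ν ++ alternatingWord i j (M i j)).map γ).prod = ((β ++ [j]).map γ).prod := by
      rw [e1]
      rw [e1] at hr1 hw1 hl1
      exact same _ _ j hl1 hr1 hω' (hw1.symm.trans he)
    rw [p2, ← p1, List.map_append, List.map_append, List.prod_append, List.prod_append, hγ i j hM]

/-- Matsumoto's theorem: a map satisfying the braid relations has the same product along any two
reduced words of the same element. -/
theorem matsumoto {G : Type*} [Monoid G] {γ : B → G} (hγ : IsBraided M γ) {ω ω' : List B}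
    (hω : cs.IsReduced ω) (hω' : cs.IsReduced ω') (he : cs.wordProd ω = cs.wordProd ω') :
    (ω.map γ).prod = (ω'.map γ).prod :=
  matsumoto_aux cs hγ _ ω ω' rfl hω hω' he

end Vale.Agent.P203.Gar
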